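import Vale.Agent.P330.Brouwer
import Mathlib

/-! # P254, (SP_0) line, row SP-POS / P1 (helper65): zeros of matrix fields on `{α₀ ≤ P ≤ α₁}`.

Brouwer ⇒ variational inequality (Hartman–Stampacchia) ⇒ a continuous symmetric field `F` on the
compact convex set of symmetric matrices with `α₀ ≤ P ≤ α₁`, which points strictly to the inside
at every face, has a zero. -/

set_option autoImplicit false

open Matrix

namespace Vale.Agent.P254.SP.H65

section VI

variable {m : ℕ}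

/-- metric projection on a compact convex set -/
theorem exists_proj {K : Set (EuclideanSpace ℝ (Fin m))} (hne : K.Nonempty) (hc : IsCompact K)
    (hv : Convex ℝ K) :
    ∃ p : EuclideanSpace ℝ (Fin m) → EuclideanSpace ℝ (Fin m), Continuous p ∧ (∀ x, p x ∈ K) ∧
      (∀ x, ∀ w ∈ K, inner ℝ (x - p x) (w - p x) ≤ 0) ∧ (∀ x ∈ K, p x = x) := by
  have h1 : ∀ x : EuclideanSpace ℝ (Fin m), ∃ v ∈ K, ‖x - v‖ = ⨅ w : K, ‖x - w‖ := fun x =>
    exists_norm_eq_iInf_of_complete_convex hne hc.isComplete hv x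
  choose p hpK hp using h1
  have hvi : ∀ x, ∀ w ∈ K, inner ℝ (x - p x) (w - p x) ≤ 0 := fun x =>
    (norm_eq_iInf_iff_real_inner_le_zero hv (hpK x)).1 (hp x)
  have hlip : ∀ x y, ‖p x - p y‖ ≤ ‖x - y‖ := by
    intro x y
    have e1 := hvi x (p y) (hpK y)
    have e2 := hvi y (p x) (hpK x)
    have e3 : ‖p x - p y‖ ^ 2 ≤ inner ℝ (x - y) (p x - p y) := by
      have e4 : inner ℝ (x - y) (p x - p y) - ‖p x - p y‖ ^ 2 =
          -(inner ℝ (x - p x) (p y - p x)) - inner ℝ (y - p y) (p x - p y) := by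
        rw [← real_inner_self_eq_norm_sq]
        simp only [inner_sub_left, inner_sub_right]
        ring
      linarith
    have e5 := real_inner_le_norm (x - y) (p x - p y)
    rcases eq_or_lt_of_le (norm_nonneg (p x - p y)) with h0 | h0
    · rw [← h0]; exact norm_nonneg _
    · have : ‖p x - p y‖ * ‖p x - p y‖ ≤ ‖x - y‖ * ‖p x - p y‖ := by nlinarith
      exact le_of_mul_le_mul_right this h0
  refine ⟨p, ?_, hpK, hvi, ?_⟩
  · have : LipschitzWith 1 p := LipschitzWith.of_dist_le_mul fun x y => by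
      simpa [dist_eq_norm] using hlip x y
    exact this.continuous
  · intro x hx
    have e1 := hvi x x hx
    rw [real_inner_self_eq_norm_sq] at e1
    have e2 : ‖x - p x‖ = 0 := by
      have := sq_nonneg ‖x - p x‖
      exact pow_eq_zero_iff (two_ne_zero) |>.1 (le_antisymm e1 this)
    exact (sub_eq_zero.1 (norm_eq_zero.1 e2)).symm

/-- Brouwer for continuous maps of a Euclidean space with bounded range -/
theorem fixed_of_bounded (f : EuclideanSpace ℝ (Fin m) → EuclideanSpace ℝ (Fin m))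
    (hf : Continuous f) {R : ℝ} (hR : 0 < R) (hb : ∀ x, ‖f x‖ ≤ R) : ∃ x, f x = x := by
  set T : (Fin m → ℝ) → EuclideanSpace ℝ (Fin m) := fun y => WithLp.toLp 2 (R • y) with hT
  set g : (Fin m → ℝ) → (Fin m → ℝ) := fun y => R⁻¹ • (f (T y)).ofLp with hg
  have hTc : Continuous T := (PiLp.continuous_toLp 2 _).comp (continuous_const_smul R)
  have hgc : Continuous g :=
    ((PiLp.continuous_ofLp 2 _).comp (hf.comp hTc)).const_smul R⁻¹
  have hgb : ∀ y, ‖g y‖ ≤ 1 := by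
    intro y
    rw [pi_norm_le_iff_of_nonneg zero_le_one]
    intro i
    have e1 : ‖(f (T y)).ofLp i‖ ≤ ‖f (T y)‖ := PiLp.norm_apply_le _ i
    have e2 : ‖(f (T y)).ofLp i‖ ≤ R := e1.trans (hb _)
    simp only [hg, Pi.smul_apply, smul_eq_mul, norm_mul, norm_inv, Real.norm_eq_abs, abs_of_pos hR]
    rw [inv_mul_le_iff₀ hR, mul_one]
    simpa [Real.norm_eq_abs] using e2
  obtain ⟨y, -, hy⟩ := Vale.Agent.P330.brouwer_cube g hgc (fun y _ => hgb y)
  refine ⟨T y, ?_⟩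
  have e1 : (f (T y)).ofLp = R • y := by
    have := congrArg (fun z => R • z) hy
    simpa [hg, smul_smul, mul_inv_cancel₀ hR.ne'] using this
  have e2 : T y = WithLp.toLp 2 (R • y) := rfl
  have e3 : f (T y) = WithLp.toLp 2 (f (T y)).ofLp := rfl
  rw [e3, e1, e2]

/-- Hartman–Stampacchia -/
theorem exists_vi {K : Set (EuclideanSpace ℝ (Fin m))} (hne : K.Nonempty) (hc : IsCompact K)
    (hv : Convex ℝ K) {Φ : EuclideanSpace ℝ (Fin m) → EuclideanSpace ℝ (Fin m)}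
    (hΦ : ContinuousOn Φ K) : ∃ x ∈ K, ∀ w ∈ K, 0 ≤ inner ℝ (Φ x) (w - x) := by
  obtain ⟨p, hpc, hpK, hvi, hfix⟩ := exists_proj hne hc hv
  set f : EuclideanSpace ℝ (Fin m) → EuclideanSpace ℝ (Fin m) := fun x => p (p x - Φ (p x)) with hf
  have h1 : Continuous fun x => Φ (p x) := hΦ.comp_continuous hpc hpK
  have hfc : Continuous f := hpc.comp (hpc.sub h1)
  obtain ⟨R, hR⟩ := hc.isBounded.exists_norm_le
  have hb : ∀ x, ‖f x‖ ≤ max R 1 := fun x => (hR _ (hpK _)).trans (le_max_left _ _)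
  obtain ⟨x, hx⟩ := fixed_of_bounded f hfc (lt_of_lt_of_le one_pos (le_max_right _ _)) hb
  have hxK : x ∈ K := by rw [← hx]; exact hpK _
  refine ⟨x, hxK, fun w hw => ?_⟩
  have e1 := hvi (p x - Φ (p x)) w hw
  have e2 : p (p x - Φ (p x)) = x := hx
  rw [e2, hfix x hxK] at e1
  have e3 : x - Φ x - x = -Φ x := by abel
  rw [e3, inner_neg_left] at e1
  linarith

end VI

section Mat

variable {n : ℕ}

/-- the order interval `α₀ ≤ P ≤ α₁` of symmetric matrices -/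
def Bx (α₀ α₁ : ℝ) : Set (Matrix (Fin n) (Fin n) ℝ) :=
  {P | P.IsSymm ∧ ∀ v : Fin n → ℝ, α₀ * (v ⬝ᵥ v) ≤ v ⬝ᵥ (P *ᵥ v) ∧
    v ⬝ᵥ (P *ᵥ v) ≤ α₁ * (v ⬝ᵥ v)}

/-- coordinates -/
noncomputable def toM (w : EuclideanSpace ℝ (Fin (n * n))) : Matrix (Fin n) (Fin n) ℝ :=
  fun i j => w (finProdFinEquiv (i, j))

/-- coordinates -/
noncomputable def ofM (P : Matrix (Fin n) (Fin n) ℝ) : EuclideanSpace ℝ (Fin (n * n)) :=
  WithLp.toLp 2 fun k => P (finProdFinEquiv.symm k).1 (finProdFinEquiv.symm k).2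

@[simp] theorem toM_ofM (P : Matrix (Fin n) (Fin n) ℝ) : toM (ofM P) = P := by
  funext i j
  change P (finProdFinEquiv.symm (finProdFinEquiv (i, j))).1
    (finProdFinEquiv.symm (finProdFinEquiv (i, j))).2 = P i j
  rw [Equiv.symm_apply_apply]

@[simp] theorem ofM_toM (w : EuclideanSpace ℝ (Fin (n * n))) : ofM (toM w) = w := by
  ext k
  change w (finProdFinEquiv ((finProdFinEquiv.symm k).1, (finProdFinEquiv.symm k).2)) = w k
  rw [Prod.mk.eta, Equiv.apply_symm_apply]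

theorem inner_ofM (A B : Matrix (Fin n) (Fin n) ℝ) :
    inner ℝ (ofM A) (ofM B) = ∑ i, ∑ j, A i j * B i j := by
  rw [PiLp.inner_apply, ← Fintype.sum_prod_type', ← finProdFinEquiv.sum_comp]
  refine Finset.sum_congr rfl fun x _ => ?_
  change inner ℝ (A (finProdFinEquiv.symm (finProdFinEquiv x)).1
    (finProdFinEquiv.symm (finProdFinEquiv x)).2) (B (finProdFinEquiv.symm (finProdFinEquiv x)).1
    (finProdFinEquiv.symm (finProdFinEquiv x)).2) = A x.1 x.2 * B x.1 x.2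
  rw [Equiv.symm_apply_apply]
  simp [mul_comm]

theorem ofM_sub (A B : Matrix (Fin n) (Fin n) ℝ) : ofM (A - B) = ofM A - ofM B := by
  ext k
  simp [ofM]

theorem continuous_toM : Continuous (toM : EuclideanSpace ℝ (Fin (n * n)) → _) := by
  refine continuous_matrix fun i j => ?_
  exact (continuous_apply _).comp (PiLp.continuous_ofLp 2 _)

theorem continuous_ofM : Continuous (ofM : Matrix (Fin n) (Fin n) ℝ → _) := by
  refine (PiLp.continuous_toLp 2 _).comp ?_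
  exact continuous_pi fun k => (continuous_id.matrix_elem _ _)

theorem dot_eq (A : Matrix (Fin n) (Fin n) ℝ) (v : Fin n → ℝ) :
    v ⬝ᵥ (A *ᵥ v) = ∑ i, ∑ j, A i j * (v i * v j) := by
  simp only [dotProduct, mulVec, Finset.mul_sum]
  refine Finset.sum_congr rfl fun i _ => Finset.sum_congr rfl fun j _ => by ring

theorem isSymm_apply {P : Matrix (Fin n) (Fin n) ℝ} (hP : P.IsSymm) (i j : Fin n) :
    P i j = P j i := by
  conv_lhs => rw [← hP]
  rfl

theorem entry_le {α₀ α₁ : ℝ} {P : Matrix (Fin n) (Fin n) ℝ} (hP : P ∈ Bx α₀ α₁) (i j : Fin n) :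
    |P i j| ≤ |α₀| + |α₁| := by
  obtain ⟨hs, hb⟩ := hP
  have hd : ∀ k, |P k k| ≤ |α₀| + |α₁| := by
    intro k
    have h1 := hb (Pi.single k 1)
    simp only [dotProduct_single_one, Pi.single_eq_same, mul_one, mulVec_single_one,
      single_one_dotProduct] at h1
    rw [abs_le]
    have := neg_abs_le α₀; have := le_abs_self α₁
    have := abs_nonneg α₀; have := abs_nonneg α₁
    constructor
    · have := h1.1; simp only [Matrix.col_apply] at this; linarith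
    · have := h1.2; simp only [Matrix.col_apply] at this; linarith
  by_cases hij : i = j
  · subst hij; exact hd i
  have hne : (Pi.single i 1 + Pi.single j 1 : Fin n → ℝ) ⬝ᵥ (Pi.single i 1 + Pi.single j 1) = 2 := by
    simp [dotProduct_add, Ne.symm hij, hij]; norm_num
  have hne' : (Pi.single i 1 - Pi.single j 1 : Fin n → ℝ) ⬝ᵥ (Pi.single i 1 - Pi.single j 1) = 2 := by
    simp [dotProduct_sub, Ne.symm hij, hij]; norm_num
  have hq : (Pi.single i 1 + Pi.single j 1 : Fin n → ℝ) ⬝ᵥ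
      (P *ᵥ (Pi.single i 1 + Pi.single j 1)) = P i i + P j j + 2 * P i j := by
    simp [mulVec_add, dotProduct_add, add_dotProduct, isSymm_apply hs j i]; ring
  have hq' : (Pi.single i 1 - Pi.single j 1 : Fin n → ℝ) ⬝ᵥ
      (P *ᵥ (Pi.single i 1 - Pi.single j 1)) = P i i + P j j - 2 * P i j := by
    simp [mulVec_sub, dotProduct_sub, sub_dotProduct, isSymm_apply hs j i]; ring
  have h1 := hb (Pi.single i 1 + Pi.single j 1)
  have h2 := hb (Pi.single i 1 - Pi.single j 1)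
  rw [hne, hq] at h1
  rw [hne', hq'] at h2
  have := neg_abs_le α₀; have := le_abs_self α₁
  have := le_abs_self α₀; have := neg_abs_le α₁
  rw [abs_le]
  constructor
  · linarith [h1.1, h1.2, h2.1, h2.2]
  · linarith [h1.1, h1.2, h2.1, h2.2]

theorem isClosed_Bx (α₀ α₁ : ℝ) : IsClosed (Bx α₀ α₁ : Set (Matrix (Fin n) (Fin n) ℝ)) := by
  have e : (Bx α₀ α₁ : Set (Matrix (Fin n) (Fin n) ℝ)) =
      {P | Pᵀ = P} ∩ ⋂ v : Fin n → ℝ, ({P | α₀ * (v ⬝ᵥ v) ≤ v ⬝ᵥ (P *ᵥ v)} ∩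
        {P | v ⬝ᵥ (P *ᵥ v) ≤ α₁ * (v ⬝ᵥ v)}) := by
    ext P
    simp [Bx, Matrix.IsSymm]
  rw [e]
  have hc : ∀ v : Fin n → ℝ, Continuous fun P : Matrix (Fin n) (Fin n) ℝ => v ⬝ᵥ (P *ᵥ v) := by
    intro v
    simp_rw [dot_eq]
    exact continuous_finsetSum _ fun i _ => continuous_finsetSum _ fun j _ =>
      (continuous_id.matrix_elem i j).mul continuous_const
  refine (isClosed_eq continuous_id.matrix_transpose continuous_id).inter
    (isClosed_iInter fun v => (isClosed_le continuous_const (hc v)).inter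
      (isClosed_le (hc v) continuous_const))

theorem convex_Bx (α₀ α₁ : ℝ) : Convex ℝ (Bx α₀ α₁ : Set (Matrix (Fin n) (Fin n) ℝ)) := by
  intro P hP R hR a b ha hb hab
  refine ⟨?_, fun v => ?_⟩
  · have h1 : Pᵀ = P := hP.1
    have h2 : Rᵀ = R := hR.1
    simp [Matrix.IsSymm, Matrix.transpose_add, Matrix.transpose_smul, h1, h2]
  · have e : v ⬝ᵥ ((a • P + b • R) *ᵥ v) = a * (v ⬝ᵥ (P *ᵥ v)) + b * (v ⬝ᵥ (R *ᵥ v)) := by
      simp [add_mulVec, smul_mulVec, dotProduct_add, dotProduct_smul]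
    have h1 := hP.2 v
    have h2 := hR.2 v
    rw [e]
    have e2 : ∀ x : ℝ, x = a * x + b * x := fun x => by rw [← add_mul, hab, one_mul]
    constructor
    · rw [e2 (α₀ * (v ⬝ᵥ v))]
      exact add_le_add (mul_le_mul_of_nonneg_left h1.1 ha) (mul_le_mul_of_nonneg_left h2.1 hb)
    · rw [e2 (α₁ * (v ⬝ᵥ v))]
      exact add_le_add (mul_le_mul_of_nonneg_left h1.2 ha) (mul_le_mul_of_nonneg_left h2.2 hb)

theorem isCompact_pre (α₀ α₁ : ℝ) :
    IsCompact (toM ⁻¹' (Bx α₀ α₁ : Set (Matrix (Fin n) (Fin n) ℝ))) := by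
  refine Metric.isCompact_of_isClosed_isBounded ((isClosed_Bx α₀ α₁).preimage continuous_toM) ?_
  refine isBounded_iff_forall_norm_le.2 ⟨Real.sqrt ((n * n : ℕ) * (|α₀| + |α₁|) ^ 2), fun w hw => ?_⟩
  rw [EuclideanSpace.norm_eq]
  apply Real.sqrt_le_sqrt
  have : ∀ k ∈ (Finset.univ : Finset (Fin (n * n))), ‖w k‖ ^ 2 ≤ (|α₀| + |α₁|) ^ 2 := by
    intro k _
    have h1 := entry_le hw (finProdFinEquiv.symm k).1 (finProdFinEquiv.symm k).2
    simp only [toM, Prod.mk.eta, Equiv.apply_symm_apply] at h1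
    rw [Real.norm_eq_abs]
    exact pow_le_pow_left₀ (abs_nonneg _) h1 2
  refine (Finset.sum_le_sum this).trans ?_
  simp

/-- spectral theorem with real matrices -/
theorem exists_diag {A : Matrix (Fin n) (Fin n) ℝ} (hA : A.IsSymm) :
    ∃ (U : Matrix (Fin n) (Fin n) ℝ) (d : Fin n → ℝ), Uᵀ * U = 1 ∧ U * Uᵀ = 1 ∧
      A = U * diagonal d * Uᵀ := by
  have hH : A.IsHermitian := by
    rw [Matrix.IsHermitian, Matrix.conjTranspose_eq_transpose_of_trivial]
    exact hA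
  refine ⟨(hH.eigenvectorUnitary : Matrix (Fin n) (Fin n) ℝ), hH.eigenvalues, ?_, ?_, ?_⟩
  · have := Unitary.star_mul_self_of_mem hH.eigenvectorUnitary.2
    rwa [Matrix.star_eq_conjTranspose, Matrix.conjTranspose_eq_transpose_of_trivial] at this
  · have := Unitary.mul_star_self_of_mem hH.eigenvectorUnitary.2
    rwa [Matrix.star_eq_conjTranspose, Matrix.conjTranspose_eq_transpose_of_trivial] at this
  · have h := hH.spectral_theorem
    rw [Unitary.conjStarAlgAut_apply, Matrix.star_eq_conjTranspose,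
      Matrix.conjTranspose_eq_transpose_of_trivial] at h
    exact h

theorem quad_diag (U : Matrix (Fin n) (Fin n) ℝ) (d : Fin n → ℝ) (v : Fin n → ℝ) :
    v ⬝ᵥ ((U * diagonal d * Uᵀ) *ᵥ v) = ∑ k, d k * (Uᵀ *ᵥ v) k ^ 2 := by
  rw [← Matrix.mulVec_mulVec, ← Matrix.mulVec_mulVec, Matrix.dotProduct_mulVec,
    ← Matrix.mulVec_transpose, dotProduct]
  refine Finset.sum_congr rfl fun k _ => ?_
  rw [Matrix.mulVec_diagonal]
  ring

theorem norm_trans {U : Matrix (Fin n) (Fin n) ℝ} (hU : U * Uᵀ = 1) (v : Fin n → ℝ) :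
    ∑ k, (Uᵀ *ᵥ v) k ^ 2 = v ⬝ᵥ v := by
  have h2 : (Uᵀ *ᵥ v) ⬝ᵥ (Uᵀ *ᵥ v) = v ⬝ᵥ v := by
    rw [Matrix.dotProduct_mulVec, ← Matrix.mulVec_transpose, Matrix.transpose_transpose,
      Matrix.mulVec_mulVec, hU, Matrix.one_mulVec]
  rw [← h2, dotProduct]
  exact Finset.sum_congr rfl fun k _ => by ring

/-- eigenvector columns -/
theorem col_eig {U : Matrix (Fin n) (Fin n) ℝ} (hU : Uᵀ * U = 1) (d : Fin n → ℝ) (k : Fin n) :
    (fun i => U i k) ⬝ᵥ (fun i => U i k) = 1 ∧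
      (U * diagonal d * Uᵀ) *ᵥ (fun i => U i k) = d k • (fun i => U i k) := by
  have h0 : (fun i => U i k) = U *ᵥ (Pi.single k 1) := by
    rw [mulVec_single_one]; rfl
  have h1 : Uᵀ *ᵥ (fun i => U i k) = Pi.single k 1 := by
    rw [h0, mulVec_mulVec, hU, one_mulVec]
  constructor
  · have := congrFun (congrFun hU k) k
    simpa [Matrix.mul_apply, dotProduct] using this
  · rw [← mulVec_mulVec, ← mulVec_mulVec, h1]
    have h2 : diagonal d *ᵥ (Pi.single k 1) = d k • (Pi.single k 1 : Fin n → ℝ) := by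
      ext i
      rw [mulVec_diagonal]
      by_cases hi : i = k
      · subst hi; simp
      · simp [hi]
    rw [h2, mulVec_smul, ← h0]

/-- rank one perturbation -/
theorem quad_vv (v u : Fin n → ℝ) : u ⬝ᵥ ((vecMulVec v v) *ᵥ u) = (u ⬝ᵥ v) ^ 2 := by
  rw [vecMulVec_mulVec, dotProduct_smul]
  simp [dotProduct_comm v u, sq]

/-- value of the quadratic form in terms of the component along an eigenvector -/
theorem quad_split {P : Matrix (Fin n) (Fin n) ℝ} (hs : P.IsSymm) {v : Fin n → ℝ} (hv : v ⬝ᵥ v = 1)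
    {t : ℝ} (hPv : P *ᵥ v = t • v) (u : Fin n → ℝ) :
    u ⬝ᵥ (P *ᵥ u) = t * (u ⬝ᵥ v) ^ 2 +
      (u - (u ⬝ᵥ v) • v) ⬝ᵥ (P *ᵥ (u - (u ⬝ᵥ v) • v)) := by
  have h1 : v ⬝ᵥ (P *ᵥ u) = t * (u ⬝ᵥ v) := by
    rw [dotProduct_mulVec, ← mulVec_transpose, hs.eq, hPv, smul_dotProduct, smul_eq_mul,
      dotProduct_comm v u]
  have h2 : u ⬝ᵥ (P *ᵥ v) = t * (u ⬝ᵥ v) := by rw [hPv, dotProduct_smul, smul_eq_mul]
  have h3 : v ⬝ᵥ (P *ᵥ v) = t := by rw [hPv, dotProduct_smul, smul_eq_mul, hv, mul_one]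
  simp only [mulVec_sub, mulVec_smul, dotProduct_sub, sub_dotProduct, smul_dotProduct,
    dotProduct_smul, smul_eq_mul, h1, h2, h3]
  ring

theorem norm_split {v : Fin n → ℝ} (hv : v ⬝ᵥ v = 1) (u : Fin n → ℝ) :
    (u - (u ⬝ᵥ v) • v) ⬝ᵥ (u - (u ⬝ᵥ v) • v) = u ⬝ᵥ u - (u ⬝ᵥ v) ^ 2 := by
  simp only [dotProduct_sub, sub_dotProduct, smul_dotProduct, dotProduct_smul, smul_eq_mul, hv,
    dotProduct_comm v u]
  ring

/-- **P1** a continuous symmetric field on `{α₀ ≤ P ≤ α₁}` which points strictly inwards on the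
faces has a zero -/
theorem exists_zero {α₀ α₁ : ℝ} (h01 : α₀ < α₁)
    (F : Matrix (Fin n) (Fin n) ℝ → Matrix (Fin n) (Fin n) ℝ)
    (hsym : ∀ P ∈ Bx α₀ α₁, (F P).IsSymm) (hF : ContinuousOn F (Bx α₀ α₁))
    (hlow : ∀ P ∈ Bx α₀ α₁, ∀ v : Fin n → ℝ, v ⬝ᵥ v = 1 → P *ᵥ v = α₀ • v →
      v ⬝ᵥ (F P *ᵥ v) < 0)
    (hup : ∀ P ∈ Bx α₀ α₁, ∀ v : Fin n → ℝ, v ⬝ᵥ v = 1 → P *ᵥ v = α₁ • v →
      0 < v ⬝ᵥ (F P *ᵥ v)) :
    ∃ P ∈ Bx α₀ α₁, F P = 0 := by
  have hcont : ContinuousOn (fun w => ofM (F (toM w)))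
      (toM ⁻¹' (Bx α₀ α₁ : Set (Matrix (Fin n) (Fin n) ℝ))) :=
    continuous_ofM.comp_continuousOn (hF.comp continuous_toM.continuousOn fun w hw => hw)
  have hconv : Convex ℝ (toM ⁻¹' (Bx α₀ α₁ : Set (Matrix (Fin n) (Fin n) ℝ))) := by
    intro x hx y hy a b ha hb hab
    exact convex_Bx α₀ α₁ hx hy ha hb hab
  have hne : (toM ⁻¹' (Bx α₀ α₁ : Set (Matrix (Fin n) (Fin n) ℝ))).Nonempty := by
    refine ⟨ofM (α₀ • 1), ?_⟩
    rw [Set.mem_preimage, toM_ofM]
    refine ⟨by simp [Matrix.IsSymm], fun v => ?_⟩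
    have hvv : 0 ≤ v ⬝ᵥ v := Finset.sum_nonneg fun i _ => mul_self_nonneg _
    have e : v ⬝ᵥ ((α₀ • (1 : Matrix (Fin n) (Fin n) ℝ)) *ᵥ v) = α₀ * (v ⬝ᵥ v) := by
      rw [smul_mulVec, one_mulVec, dotProduct_smul, smul_eq_mul]
    rw [e]
    exact ⟨le_rfl, mul_le_mul_of_nonneg_right h01.le hvv⟩
  obtain ⟨w, hw, hvi⟩ := exists_vi hne (isCompact_pre α₀ α₁) hconv hcont
  set P := toM w with hP
  have hPK : P ∈ Bx α₀ α₁ := hw
  have key : ∀ R ∈ Bx α₀ α₁, 0 ≤ ∑ i, ∑ j, F P i j * (R i j - P i j) := by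
    intro R hR
    have h1 := hvi (ofM R) (by rw [Set.mem_preimage, toM_ofM]; exact hR)
    have h2 : ofM R - w = ofM (R - P) := by rw [ofM_sub, hP, ofM_toM]
    rw [h2, inner_ofM] at h1
    exact h1
  obtain ⟨hPs, hPb⟩ := hPK
  have hsub : 0 < α₁ - α₀ := by linarith
  -- no eigenvalue on the boundary
  have hno1 : ∀ v : Fin n → ℝ, v ⬝ᵥ v = 1 → P *ᵥ v = α₁ • v → False := by
    intro v hv hPv
    have hR : P - (α₁ - α₀) • vecMulVec v v ∈ Bx α₀ α₁ := by
      refine ⟨?_, fun u => ?_⟩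
      · have h1 : Pᵀ = P := hPs
        rw [Matrix.IsSymm, transpose_sub, transpose_smul, transpose_vecMulVec, h1]
      · have e : u ⬝ᵥ ((P - (α₁ - α₀) • vecMulVec v v) *ᵥ u) =
            u ⬝ᵥ (P *ᵥ u) - (α₁ - α₀) * (u ⬝ᵥ v) ^ 2 := by
          rw [sub_mulVec, smul_mulVec, dotProduct_sub, dotProduct_smul, quad_vv, smul_eq_mul]
        have e1 := quad_split hPs hv hPv u
        have e2 := (hPb (u - (u ⬝ᵥ v) • v)).1
        rw [norm_split hv] at e2
        have e3 := (hPb u).2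
        have e4 := mul_nonneg hsub.le (sq_nonneg (u ⬝ᵥ v))
        rw [e]
        constructor
        · nlinarith
        · linarith
    have h1 := key _ hR
    have h2 : ∑ i, ∑ j, F P i j * ((P - (α₁ - α₀) • vecMulVec v v) i j - P i j) =
        -(α₁ - α₀) * (v ⬝ᵥ (F P *ᵥ v)) := by
      rw [dot_eq, Finset.mul_sum]
      refine Finset.sum_congr rfl fun i _ => ?_
      rw [Finset.mul_sum]
      refine Finset.sum_congr rfl fun j _ => ?_
      simp only [Matrix.sub_apply, Matrix.smul_apply, vecMulVec_apply, smul_eq_mul]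
      ring
    rw [h2] at h1
    have h3 := hup P ⟨hPs, hPb⟩ v hv hPv
    nlinarith [mul_pos hsub h3]
  have hno0 : ∀ v : Fin n → ℝ, v ⬝ᵥ v = 1 → P *ᵥ v = α₀ • v → False := by
    intro v hv hPv
    have hR : P + (α₁ - α₀) • vecMulVec v v ∈ Bx α₀ α₁ := by
      refine ⟨?_, fun u => ?_⟩
      · have h1 : Pᵀ = P := hPs
        rw [Matrix.IsSymm, transpose_add, transpose_smul, transpose_vecMulVec, h1]
      · have e : u ⬝ᵥ ((P + (α₁ - α₀) • vecMulVec v v) *ᵥ u) =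
            u ⬝ᵥ (P *ᵥ u) + (α₁ - α₀) * (u ⬝ᵥ v) ^ 2 := by
          rw [add_mulVec, smul_mulVec, dotProduct_add, dotProduct_smul, quad_vv, smul_eq_mul]
        have e1 := quad_split hPs hv hPv u
        have e2 := (hPb (u - (u ⬝ᵥ v) • v)).2
        rw [norm_split hv] at e2
        have e3 := (hPb u).1
        have e4 := mul_nonneg hsub.le (sq_nonneg (u ⬝ᵥ v))
        rw [e]
        constructor
        · linarith
        · nlinarith
    have h1 := key _ hR
    have h2 : ∑ i, ∑ j, F P i j * ((P + (α₁ - α₀) • vecMulVec v v) i j - P i j) =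
        (α₁ - α₀) * (v ⬝ᵥ (F P *ᵥ v)) := by
      rw [dot_eq, Finset.mul_sum]
      refine Finset.sum_congr rfl fun i _ => ?_
      rw [Finset.mul_sum]
      refine Finset.sum_congr rfl fun j _ => ?_
      simp only [Matrix.add_apply, Matrix.smul_apply, vecMulVec_apply, smul_eq_mul]
      ring
    rw [h2] at h1
    have h3 := hlow P ⟨hPs, hPb⟩ v hv hPv
    nlinarith [mul_neg_of_pos_of_neg hsub h3]
  -- strict interior
  obtain ⟨U, d, hU1, hU2, hUd⟩ := exists_diag hPs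
  have hd : ∀ k, α₀ < d k ∧ d k < α₁ := by
    intro k
    obtain ⟨c1, c2⟩ := col_eig hU1 d k
    rw [← hUd] at c2
    have h1 := hPb fun i => U i k
    rw [c2, dotProduct_smul, c1, smul_eq_mul, mul_one, mul_one, mul_one] at h1
    refine ⟨lt_of_le_of_ne h1.1 fun h => hno0 _ c1 (by rw [c2, h]),
      lt_of_le_of_ne h1.2 fun h => hno1 _ c1 (by rw [c2, h])⟩
  have hδ : ∃ δ > 0, ∀ k, α₀ + δ ≤ d k ∧ d k ≤ α₁ - δ := by
    have h1 : ∀ k ∈ (Finset.univ : Finset (Fin n)), ∃ δ > 0, α₀ + δ ≤ d k ∧ d k ≤ α₁ - δ := by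
      intro k _
      refine ⟨min (d k - α₀) (α₁ - d k), lt_min (by linarith [(hd k).1]) (by linarith [(hd k).2]), ?_, ?_⟩
      · linarith [min_le_left (d k - α₀) (α₁ - d k)]
      · linarith [min_le_right (d k - α₀) (α₁ - d k)]
    choose! e he1 he2 using h1
    by_cases hn : (Finset.univ : Finset (Fin n)).Nonempty
    · refine ⟨Finset.univ.inf' hn e, (Finset.lt_inf'_iff hn).2 fun k hk => he1 k hk, fun k => ?_⟩
      have h2 : Finset.univ.inf' hn e ≤ e k := Finset.inf'_le _ (Finset.mem_univ k)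
      have h3 := he2 k (Finset.mem_univ k)
      exact ⟨by linarith [h3.1], by linarith [h3.2]⟩
    · refine ⟨1, one_pos, fun k => absurd ⟨k, Finset.mem_univ k⟩ hn⟩
  obtain ⟨δ, hδ0, hδ⟩ := hδ
  have hPq : ∀ u : Fin n → ℝ, (α₀ + δ) * (u ⬝ᵥ u) ≤ u ⬝ᵥ (P *ᵥ u) ∧
      u ⬝ᵥ (P *ᵥ u) ≤ (α₁ - δ) * (u ⬝ᵥ u) := by
    intro u
    rw [hUd, quad_diag, ← norm_trans hU2, Finset.mul_sum, Finset.mul_sum]
    constructor
    · exact Finset.sum_le_sum fun k _ => mul_le_mul_of_nonneg_right (hδ k).1 (sq_nonneg _)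
    · exact Finset.sum_le_sum fun k _ => mul_le_mul_of_nonneg_right (hδ k).2 (sq_nonneg _)
  -- bound of the form of `F P`
  set G := F P with hG
  have hGs : G.IsSymm := hsym P ⟨hPs, hPb⟩
  obtain ⟨W, g, hW1, hW2, hWd⟩ := exists_diag hGs
  set C := ∑ k, |g k| with hC
  have hC0 : 0 ≤ C := Finset.sum_nonneg fun k _ => abs_nonneg _
  have hGq : ∀ u : Fin n → ℝ, |u ⬝ᵥ (G *ᵥ u)| ≤ C * (u ⬝ᵥ u) := by
    intro u
    rw [hWd, quad_diag, ← norm_trans hW2, Finset.mul_sum]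
    refine (Finset.abs_sum_le_sum_abs _ _).trans (Finset.sum_le_sum fun k _ => ?_)
    rw [abs_mul, abs_of_nonneg (sq_nonneg ((Wᵀ *ᵥ u) k))]
    exact mul_le_mul_of_nonneg_right
      (Finset.single_le_sum (f := fun k => |g k|) (fun i _ => abs_nonneg _) (Finset.mem_univ k))
      (sq_nonneg _)
  set ε := δ / (C + 1) with hε
  have hε0 : 0 < ε := by positivity
  have hεC : ε * C ≤ δ := by
    rw [hε, div_mul_eq_mul_div, div_le_iff₀ (by positivity)]
    nlinarith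
  have hR : P - ε • G ∈ Bx α₀ α₁ := by
    refine ⟨?_, fun u => ?_⟩
    · have h1 : Pᵀ = P := hPs
      have h2 : Gᵀ = G := hGs
      rw [Matrix.IsSymm, transpose_sub, transpose_smul, h1, h2]
    · have e : u ⬝ᵥ ((P - ε • G) *ᵥ u) = u ⬝ᵥ (P *ᵥ u) - ε * (u ⬝ᵥ (G *ᵥ u)) := by
        rw [sub_mulVec, smul_mulVec, dotProduct_sub, dotProduct_smul, smul_eq_mul]
      have huu : 0 ≤ u ⬝ᵥ u := Finset.sum_nonneg fun i _ => mul_self_nonneg _
      have h1 := abs_le.1 (hGq u)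
      have h2 := hPq u
      have h3 : ε * (C * (u ⬝ᵥ u)) ≤ δ * (u ⬝ᵥ u) := by
        rw [← mul_assoc]; exact mul_le_mul_of_nonneg_right hεC huu
      have h4 := mul_le_mul_of_nonneg_left h1.1 hε0.le
      have h5 := mul_le_mul_of_nonneg_left h1.2 hε0.le
      rw [e]
      constructor
      · linarith [h2.1]
      · linarith [h2.2]
  have h1 := key _ hR
  have h2 : ∑ i, ∑ j, G i j * ((P - ε • G) i j - P i j) = -ε * ∑ i, ∑ j, G i j ^ 2 := by
    rw [Finset.mul_sum]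
    refine Finset.sum_congr rfl fun i _ => ?_
    rw [Finset.mul_sum]
    refine Finset.sum_congr rfl fun j _ => ?_
    simp only [Matrix.sub_apply, Matrix.smul_apply, smul_eq_mul]
    ring
  rw [h2] at h1
  have h3 : ∑ i, ∑ j, G i j ^ 2 ≤ 0 := by
    by_contra hh
    push Not at hh
    nlinarith [mul_pos hε0 hh]
  have h4 : ∀ i ∈ (Finset.univ : Finset (Fin n)), 0 ≤ ∑ j, G i j ^ 2 := fun i _ =>
    Finset.sum_nonneg fun j _ => sq_nonneg _
  have h5 := (Finset.sum_eq_zero_iff_of_nonneg h4).1 (le_antisymm h3 (Finset.sum_nonneg h4))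
  refine ⟨P, ⟨hPs, hPb⟩, ?_⟩
  ext i j
  have h6 := (Finset.sum_eq_zero_iff_of_nonneg fun j _ => sq_nonneg (G i j)).1
    (h5 i (Finset.mem_univ i)) j (Finset.mem_univ j)
  exact pow_eq_zero_iff (two_ne_zero) |>.1 h6

end Mat

end Vale.Agent.P254.SP.H65
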