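import Vale.Agent.P254.SP.POS.Iface
import Vale.Agent.P254.SP.H65.Zero
import Vale.Agent.P254.S.H545.GaugeAd
import Vale.Agent.P254.S.H979.Push
import Vale.Agent.P254.S.H130.Main

/-! # P254, (SP_0) line, row SP-POS / P4 (helper65): signs on the faces, `StmtFace`. -/

set_option autoImplicit false

open MeasureTheory Matrix Filter Topology
open scoped Matrix

namespace Vale.Agent.P254.SP.H65

open Vale.Agent.P227.M Vale.Agent.P254.S Vale.Agent.P254.S.H545 Vale.Agent.P254.SP.Pos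

variable {n : ℕ}

/-! ### pointwise -/

theorem qf_dot (A : Matrix (Fin n) (Fin n) ℝ) (v : E n) : qf A v = v.ofLp ⬝ᵥ (A *ᵥ v.ofLp) := by
  rw [dot_eq]
  unfold qf
  refine Finset.sum_congr rfl fun i _ => Finset.sum_congr rfl fun j _ => by ring

theorem qf_fc (U : E n → Matrix (Fin n) (Fin n) ℝ) (m : E n → Fin n → ℝ) (g : ℝ → ℝ) (z v : E n) :
    qf (fc U m g z) v = ∑ k, g (m z k) * ((U z)ᵀ *ᵥ v.ofLp) k ^ 2 := by
  rw [qf_dot]
  exact quad_diag _ _ _

theorem dot_self (v : E n) : v.ofLp ⬝ᵥ v.ofLp = ‖v‖ ^ 2 := by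
  rw [norm_sq_eq_sum, dotProduct]
  exact Finset.sum_congr rfl fun i _ => by ring

theorem wsum {M U : E n → Matrix (Fin n) (Fin n) ℝ} {m : E n → Fin n → ℝ} (hS : Spec M U m)
    (z v : E n) : ∑ k, ((U z)ᵀ *ᵥ v.ofLp) k ^ 2 = ‖v‖ ^ 2 := by
  rw [norm_trans (hS.orth z), dot_self]

theorem qf_M {M U : E n → Matrix (Fin n) (Fin n) ℝ} {m : E n → Fin n → ℝ} (hS : Spec M U m)
    (z v : E n) : qf (M z) v = ∑ k, m z k * ((U z)ᵀ *ᵥ v.ofLp) k ^ 2 := by
  rw [qf_dot, hS.dec z]
  exact quad_diag _ _ _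

/-- pointwise Jensen inequality -/
theorem jensen_pt {g : ℝ → ℝ} (hg : ConcaveOn ℝ (Set.Ioi 0) g) {m w : Fin n → ℝ} {s : ℝ}
    (hm : ∀ k, 0 < m k) (hw : ∀ k, 0 ≤ w k) (hs : ∑ k, w k = s) (hs0 : 0 < s) :
    ∑ k, g (m k) * w k ≤ s * g ((∑ k, m k * w k) / s) := by
  have h1 := hg.le_map_sum (t := Finset.univ) (w := fun k => w k / s) (p := m)
    (fun k _ => div_nonneg (hw k) hs0.le) (by rw [← Finset.sum_div, hs, div_self hs0.ne'])
    (fun k _ => hm k)
  simp only [smul_eq_mul] at h1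
  have e1 : ∑ k, w k / s * g (m k) = (∑ k, g (m k) * w k) / s := by
    rw [Finset.sum_div]; exact Finset.sum_congr rfl fun k _ => by ring
  have e2 : ∑ k, w k / s * m k = (∑ k, m k * w k) / s := by
    rw [Finset.sum_div]; exact Finset.sum_congr rfl fun k _ => by ring
  rw [e1, e2, div_le_iff₀ hs0] at h1
  linarith

/-! ### continuity of `g(M)` -/

variable {φ V : E n → ℝ} {a b M κ c C : ℝ} {U : E n → Matrix (Fin n) (Fin n) ℝ}
  {m : E n → Fin n → ℝ}

theorem continuous_fc (h : BP φ V a b M κ) (hS : Spec (hess φ) U m) {g : ℝ → ℝ}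
    (hg : ContinuousOn g (Set.Ioi 0)) (i j : Fin n) : Continuous fun z => fc U m g z i j := by
  have hsp := S130.spec_of h hS
  refine continuous_of_uniform_approx_of_continuous fun u hu => ?_
  obtain ⟨ε, hε, hu⟩ := Metric.mem_uniformity_dist.1 hu
  have hgc : ContinuousOn g (Set.Icc a (max a b)) :=
    hg.mono fun x hx => lt_of_lt_of_le h.a_pos hx.1
  obtain ⟨p, hp⟩ := exists_polynomial_near_of_continuousOn a (max a b) g hgc (ε / 2) (by positivity)
  refine ⟨fun z => (Polynomial.aeval (hess φ z) p : Matrix (Fin n) (Fin n) ℝ) i j, ?_, fun z => ?_⟩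
  · obtain ⟨K, hK⟩ := ((S130.mbl_hess h hS).aeval p i j).lipschitz
    exact hK.continuous
  · apply hu
    rw [Real.dist_eq, abs_sub_comm]
    change |(Polynomial.aeval (hess φ z) p : Matrix (Fin n) (Fin n) ℝ) i j - fc U m g z i j| < ε
    rw [S130.Spec.aeval_eq hsp]
    have h1 := S130.Spec.close hsp (G := fun t => p.eval t) (F := g) (B := ε / 2)
      (fun x hx => (hp x hx).le) (by positivity) z i j
    refine lt_of_le_of_lt h1 (by linarith)

theorem bdd_fc (h : BP φ V a b M κ) (hS : Spec (hess φ) U m) {g : ℝ → ℝ}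
    (hg : ContinuousOn g (Set.Ioi 0)) : ∃ B, ∀ z i j, |fc U m g z i j| ≤ B := by
  have hsp := S130.spec_of h hS
  have hgc : ContinuousOn g (Set.Icc a (max a b)) :=
    hg.mono fun x hx => lt_of_lt_of_le h.a_pos hx.1
  obtain ⟨B, hB⟩ := isCompact_Icc.exists_bound_of_continuousOn hgc
  refine ⟨|B|, fun z i j => ?_⟩
  exact S130.Spec.bdd hsp (F := g) (fun x hx => (hB x hx).trans (le_abs_self B)) (abs_nonneg _) z i j

theorem integrable_fc (h : BP φ V a b M κ) (hS : Spec (hess φ) U m) {g : ℝ → ℝ}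
    (hg : ContinuousOn g (Set.Ioi 0)) (i j : Fin n) :
    Integrable (fun z => fc U m g z i j) (law (Q : E n → ℝ)) := by
  obtain ⟨B, hB⟩ := bdd_fc h hS hg
  exact integrable_law_gr reg_Q (Gr.of_bound (continuous_fc h hS hg i j) fun z => hB z i j)

theorem qf_mF (h : BP φ V a b M κ) (hS : Spec (hess φ) U m) {g : ℝ → ℝ}
    (hg : ContinuousOn g (Set.Ioi 0)) (v : E n) :
    qf (mF U m g) v = ∫ z, qf (fc U m g z) v ∂(law (Q : E n → ℝ)) := by
  unfold qf mF
  have hI : ∀ i j, Integrable (fun z => fc U m g z i j * v i * v j) (law (Q : E n → ℝ)) :=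
    fun i j => ((integrable_fc h hS hg i j).mul_const _).mul_const _
  rw [integral_finsetSum _ fun i _ => integrable_finsetSum _ fun j _ => hI i j]
  refine Finset.sum_congr rfl fun i _ => ?_
  rw [integral_finsetSum _ fun j _ => hI i j]
  refine Finset.sum_congr rfl fun j _ => ?_
  rw [integral_mul_const, integral_mul_const, int_law reg_Q]

theorem continuous_qf_fc (h : BP φ V a b M κ) (hS : Spec (hess φ) U m) {g : ℝ → ℝ}
    (hg : ContinuousOn g (Set.Ioi 0)) (v : E n) : Continuous fun z => qf (fc U m g z) v := by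
  unfold qf
  exact continuous_finsetSum _ fun i _ => continuous_finsetSum _ fun j _ =>
    ((continuous_fc h hS hg i j).mul continuous_const).mul continuous_const

theorem integrable_qf_fc (h : BP φ V a b M κ) (hS : Spec (hess φ) U m) {g : ℝ → ℝ}
    (hg : ContinuousOn g (Set.Ioi 0)) (v : E n) :
    Integrable (fun z => qf (fc U m g z) v) (law (Q : E n → ℝ)) := by
  unfold qf
  exact integrable_finsetSum _ fun i _ => integrable_finsetSum _ fun j _ =>
    ((integrable_fc h hS hg i j).mul_const _).mul_const _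

/-- Jensen, both steps, for a concave `g` and a positive field `k(M)` -/
theorem jensen (h : BP φ V a b M κ) (hS : Spec (hess φ) U m) {g k : ℝ → ℝ}
    (hg : ConcaveOn ℝ (Set.Ioi 0) g) (hgc : ContinuousOn g (Set.Ioi 0))
    (hk : ContinuousOn k (Set.Ioi 0)) (hk0 : ∀ x, 0 < x → 0 < k x) {v : E n} (hv : v ≠ 0) :
    ∫ z, qf (fc U m (fun x => g (k x)) z) v ∂(law (Q : E n → ℝ)) ≤
      ‖v‖ ^ 2 * g ((∫ z, qf (fc U m k z) v ∂(law (Q : E n → ℝ))) / ‖v‖ ^ 2) := by
  have hv0 : 0 < ‖v‖ ^ 2 := by have := norm_pos_iff.2 hv; positivity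
  have := isProb_law (reg_Q (n := n))
  have hpos : ∀ z l, 0 < m z l := fun z l => lt_of_lt_of_le h.a_pos (S130.eig_mem h hS z l).1
  have hgk : ContinuousOn (fun x => g (k x)) (Set.Ioi 0) := hgc.comp hk fun x hx => hk0 x hx
  set Y : E n → ℝ := fun z => qf (fc U m k z) v / ‖v‖ ^ 2 with hY
  have hpt : ∀ z, qf (fc U m (fun x => g (k x)) z) v ≤ ‖v‖ ^ 2 * g (Y z) := by
    intro z
    rw [qf_fc, hY]
    simp only [qf_fc]
    exact jensen_pt hg (m := fun l => k (m z l)) (fun l => hk0 _ (hpos z l))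
      (fun l => sq_nonneg _) (wsum hS z v) hv0
  -- range of `Y`
  have hkc : ContinuousOn k (Set.Icc a (max a b)) :=
    hk.mono fun x hx => lt_of_lt_of_le h.a_pos hx.1
  obtain ⟨x0, hx0, hmin⟩ := isCompact_Icc.exists_isMinOn
    (Set.nonempty_Icc.2 (le_max_left a b)) hkc
  obtain ⟨x1, hx1, hmax⟩ := isCompact_Icc.exists_isMaxOn
    (Set.nonempty_Icc.2 (le_max_left a b)) hkc
  have hk00 : 0 < k x0 := hk0 _ (lt_of_lt_of_le h.a_pos hx0.1)
  have hmem : ∀ z l, m z l ∈ Set.Icc a (max a b) := fun z l =>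
    ⟨(S130.eig_mem h hS z l).1, (S130.eig_mem h hS z l).2.trans (le_max_right _ _)⟩
  have hYr : ∀ z, Y z ∈ Set.Icc (k x0) (k x1) := by
    intro z
    rw [hY]
    simp only [Set.mem_Icc, qf_fc]
    rw [le_div_iff₀ hv0, div_le_iff₀ hv0, ← wsum hS z v, Finset.mul_sum, Finset.mul_sum]
    constructor
    · exact Finset.sum_le_sum fun l _ => mul_le_mul_of_nonneg_right (hmin (hmem z l)) (sq_nonneg _)
    · exact Finset.sum_le_sum fun l _ => mul_le_mul_of_nonneg_right (hmax (hmem z l)) (sq_nonneg _)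
  have hsub : Set.Icc (k x0) (k x1) ⊆ Set.Ioi 0 := fun x hx => lt_of_lt_of_le hk00 hx.1
  have hgI : ContinuousOn g (Set.Icc (k x0) (k x1)) := hgc.mono hsub
  have hYc : Continuous Y := (continuous_qf_fc h hS hk v).div_const _
  have hYi : Integrable Y (law (Q : E n → ℝ)) := (integrable_qf_fc h hS hk v).div_const _
  have hgY : Continuous fun z => g (Y z) := hgI.comp_continuous hYc hYr
  have hgYi : Integrable (fun z => g (Y z)) (law (Q : E n → ℝ)) := by
    obtain ⟨B, hB⟩ := isCompact_Icc.exists_bound_of_continuousOn hgI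
    exact integrable_law_gr reg_Q (Gr.of_bound hgY fun z => hB _ (hYr z))
  have h1 := (hg.subset hsub (convex_Icc _ _)).le_map_integral hgI isClosed_Icc
    (Filter.Eventually.of_forall hYr) hYi hgYi
  have h2 : ∫ z, qf (fc U m (fun x => g (k x)) z) v ∂(law (Q : E n → ℝ)) ≤
      ∫ z, ‖v‖ ^ 2 * g (Y z) ∂(law (Q : E n → ℝ)) :=
    integral_mono (integrable_qf_fc h hS hgk v) (hgYi.const_mul _) hpt
  rw [integral_const_mul] at h2
  refine h2.trans ?_
  have h3 : (∫ z, Y z ∂(law (Q : E n → ℝ))) =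
      (∫ z, qf (fc U m k z) v ∂(law (Q : E n → ℝ))) / ‖v‖ ^ 2 := by
    rw [hY, integral_div]
  rw [← h3]
  exact mul_le_mul_of_nonneg_left h1 hv0.le

/-! ### Cauchy-Schwarz and the two moment bounds -/

theorem cs {μ : Measure (E n)} {f g : E n → ℝ} (hf : Integrable (fun x => f x ^ 2) μ)
    (hg : Integrable (fun x => g x ^ 2) μ) (hfg : Integrable (fun x => f x * g x) μ) :
    (∫ x, f x * g x ∂μ) ^ 2 ≤ (∫ x, f x ^ 2 ∂μ) * ∫ x, g x ^ 2 ∂μ := by
  set A := ∫ x, f x ^ 2 ∂μ
  set B := ∫ x, f x * g x ∂μ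
  set D := ∫ x, g x ^ 2 ∂μ
  have key : ∀ s : ℝ, 0 ≤ D * (s * s) + (-2 * B) * s + A := by
    intro s
    have h1 : 0 ≤ ∫ x, (f x - s * g x) ^ 2 ∂μ := integral_nonneg fun x => sq_nonneg _
    have h2 : ∫ x, (f x - s * g x) ^ 2 ∂μ = A - 2 * s * B + s ^ 2 * D := by
      have e : (fun x => (f x - s * g x) ^ 2) =
          fun x => f x ^ 2 - 2 * s * (f x * g x) + s ^ 2 * g x ^ 2 := by
        funext x; ring
      have hi : Integrable (fun x => f x ^ 2 - 2 * s * (f x * g x)) μ := hf.sub (hfg.const_mul _)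
      have hj : Integrable (fun x => 2 * s * (f x * g x)) μ := hfg.const_mul _
      have hk : Integrable (fun x => s ^ 2 * g x ^ 2) μ := hg.const_mul _
      rw [e, integral_add hi hk, integral_sub hf hj, integral_const_mul, integral_const_mul]
    rw [h2] at h1
    linarith
  have h1 := discrim_le_zero key
  unfold discrim at h1
  nlinarith

theorem sqrt_cs {B A D : ℝ} (h : B ^ 2 ≤ A * D) : B ≤ Real.sqrt (A * D) := Real.le_sqrt_of_sq_le h

theorem lin_eq (A : Matrix (Fin n) (Fin n) ℝ) (x : E n) : (lin A x).ofLp = A *ᵥ x.ofLp := rfl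

theorem inner_dot (x y : E n) : inner ℝ x y = x.ofLp ⬝ᵥ y.ofLp := by
  rw [PiLp.inner_apply, dotProduct]
  refine Finset.sum_congr rfl fun i _ => ?_
  simp [mul_comm]

theorem inner_lin {P : Matrix (Fin n) (Fin n) ℝ} (hP : P.transpose = P) (x y : E n) :
    inner ℝ (lin P x) y = inner ℝ x (lin P y) := by
  rw [inner_dot, inner_dot, lin_eq, lin_eq, dotProduct_mulVec, ← mulVec_transpose, hP]

theorem gr_inner (v : E n) : Gr fun x : E n => inner ℝ x v := by
  have e : (fun x : E n => inner ℝ x v) = fun x => ∑ i, v i * x i := by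
    funext x
    rw [inner_dot, dotProduct]
    exact Finset.sum_congr rfl fun i _ => mul_comm _ _
  rw [e]
  exact Gr.sum _ fun i _ => (Gr.coord i).const_mul _

/-- `E ⟨v,x⟩² ≤ |v|² E|x|²`, and the Gaussian value -/
theorem gauss_inner_sq (v : E n) : ∫ z, (inner ℝ z v : ℝ) ^ 2 ∂(law (Q : E n → ℝ)) = ‖v‖ ^ 2 := by
  have hIBP : ∀ i j : Fin n, Ex Q (fun z : E n => z i * z j) = if j = i then 1 else 0 := by
    intro i j
    have h1 := ibp_Q (f := fun z : E n => z j) (by fun_prop) (Gr.coord j) i (by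
      have : pd i (fun z : E n => z j) = fun _ => if j = i then 1 else 0 := by
        funext x; exact rpd_coord i j x
      rw [this]; exact Gr.const _)
    rw [h1]
    have : pd i (fun z : E n => z j) = fun _ => if j = i then 1 else 0 := by
      funext x; exact rpd_coord i j x
    rw [this]
    have := isProb_law (reg_Q (n := n))
    rw [← int_law reg_Q]
    simp
  have e : ∀ z : E n, (inner ℝ z v : ℝ) ^ 2 = ∑ i, ∑ j, v i * v j * (z i * z j) := by
    intro z
    rw [inner_dot, dotProduct, sq, Finset.sum_mul_sum]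
    refine Finset.sum_congr rfl fun i _ => Finset.sum_congr rfl fun j _ => by ring
  have hI : ∀ i j : Fin n, Integrable (fun z : E n => v i * v j * (z i * z j)) (law Q) := fun i j =>
    integrable_law_gr reg_Q (((Gr.coord i).mul (Gr.coord j)).const_mul _)
  simp_rw [e]
  rw [integral_finsetSum _ fun i _ => integrable_finsetSum _ fun j _ => hI i j]
  have : ∀ i : Fin n, ∫ z : E n, ∑ j, v i * v j * (z i * z j) ∂(law Q) = v i ^ 2 := by
    intro i
    rw [integral_finsetSum _ fun j _ => hI i j]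
    have : ∀ j, ∫ z : E n, v i * v j * (z i * z j) ∂(law Q) = v i * v j * if j = i then 1 else 0 := by
      intro j
      rw [integral_const_mul, int_law reg_Q, hIBP]
    simp_rw [this]
    simp [sq]
  simp_rw [this]
  exact (norm_sq_eq_sum v).symm

theorem gr_inner_grad (h : BP φ V a b M κ) (v : E n) :
    Gr fun z : E n => inner ℝ (gradient φ z) v := by
  have e : (fun z : E n => inner ℝ (gradient φ z) v) = fun z => ∑ i, v i * pd i φ z := by
    funext z
    rw [inner_dot, dotProduct]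
    refine Finset.sum_congr rfl fun i _ => ?_
    rw [← grad_coord φ z i, mul_comm]
  rw [e]
  exact Gr.sum _ fun i _ => (gr_dφ h i).const_mul _

/-- `E ⟨v, D²φ v⟩ ≤ |v|² (E|X|²)^{1/2} / t` -/
theorem up_moment (hPu : StmtPush) (hV : Reg V c C) {P : Matrix (Fin n) (Fin n) ℝ}
    (hPt : P.transpose = P) (hdet : P.det ≠ 0) (h : BP φ (fun x => V (lin P x)) a b M κ)
    {t : ℝ} {v : E n} (ht : 0 < t) (hv : lin P v = t • v) :
    ∫ z, qf (hess φ z) v ∂(law (Q : E n → ℝ)) ≤
      ‖v‖ ^ 2 * (Real.sqrt (Ex V fun x => ‖x‖ ^ 2) / t) := by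
  obtain ⟨c', C', hW⟩ := reg_lin hV hdet
  set W : E n → ℝ := fun x => V (lin P x) with hWd
  have hG := gr_inner_grad h v
  have hz := gr_inner v
  have e1 : ∫ z, qf (hess φ z) v ∂(law (Q : E n → ℝ)) =
      ∫ z, (inner ℝ z v : ℝ) * inner ℝ (gradient φ z) v ∂(law (Q : E n → ℝ)) := by
    have hI : ∀ i j : Fin n, Integrable (fun z => hess φ z i j * v i * v j) (law (Q : E n → ℝ)) :=
      fun i j => ((integrable_law_gr reg_Q (gr_ddφ h i j)).mul_const _).mul_const _
    have hJ0 : ∀ i j : Fin n, Integrable (fun z : E n => z i * gradient φ z j) (law Q) := by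
      intro i j
      have e0 : (fun z : E n => z i * gradient φ z j) = fun z => z i * pd j φ z := by
        funext z; rw [grad_coord]
      rw [e0]
      exact integrable_law_gr reg_Q ((Gr.coord i).mul (gr_dφ h j))
    have hJ : ∀ i j : Fin n, Integrable (fun z : E n => z i * gradient φ z j * (v i * v j))
      (law Q) := fun i j => (hJ0 i j).mul_const _
    have e2 : ∀ z : E n, (inner ℝ z v : ℝ) * inner ℝ (gradient φ z) v =
        ∑ i, ∑ j, z i * gradient φ z j * (v i * v j) := by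
      intro z
      rw [inner_dot, inner_dot, dotProduct, dotProduct, Finset.sum_mul_sum]
      refine Finset.sum_congr rfl fun i _ => Finset.sum_congr rfl fun j _ => by ring
    simp_rw [e2]
    unfold qf
    rw [integral_finsetSum _ fun i _ => integrable_finsetSum _ fun j _ => hI i j,
      integral_finsetSum _ fun i _ => integrable_finsetSum _ fun j _ => hJ i j]
    refine Finset.sum_congr rfl fun i _ => ?_
    rw [integral_finsetSum _ fun j _ => hI i j, integral_finsetSum _ fun j _ => hJ i j]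
    refine Finset.sum_congr rfl fun j _ => ?_
    rw [integral_mul_const, integral_mul_const, integral_mul_const, stein h i j, int_law reg_Q]
    ring
  have h2 := cs (integrable_law_gr reg_Q (hz.pow 2)) (integrable_law_gr reg_Q (hG.pow 2))
    (integrable_law_gr reg_Q (hz.mul hG))
  rw [gauss_inner_sq] at h2
  have e3 : ∫ z, (inner ℝ (gradient φ z) v : ℝ) ^ 2 ∂(law (Q : E n → ℝ)) =
      (t ^ 2)⁻¹ * Ex V fun x => (inner ℝ x v : ℝ) ^ 2 := by
    rw [int_law reg_Q, ← (hPu n φ W a b M κ h).1 fun x => (inner ℝ x v : ℝ) ^ 2,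
      ← Ex_lin hdet V fun x => (inner ℝ x v : ℝ) ^ 2, ← int_law hW, ← int_law hW,
      ← integral_const_mul]
    congr 1
    funext x
    rw [inner_lin hPt, hv, real_inner_smul_right, mul_pow, ← mul_assoc,
      inv_mul_cancel₀ (by positivity), one_mul]
  have e4 : (Ex V fun x => (inner ℝ x v : ℝ) ^ 2) ≤ ‖v‖ ^ 2 * Ex V fun x => ‖x‖ ^ 2 := by
    rw [← int_law hV, ← int_law hV, ← integral_const_mul]
    refine integral_mono (integrable_law_gr hV (hz.pow 2)) ((law_sq hV).const_mul _) fun x => ?_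
    have := abs_real_inner_le_norm x v
    have h5 := pow_le_pow_left₀ (abs_nonneg _) this 2
    rw [sq_abs, mul_pow] at h5
    simpa [mul_comm] using h5
  have hE0 : 0 ≤ Ex V fun x => ‖x‖ ^ 2 := by
    rw [← int_law hV]; exact integral_nonneg fun x => by positivity
  rw [e1]
  refine (sqrt_cs h2).trans ?_
  rw [e3]
  apply Real.sqrt_le_iff.2
  refine ⟨by positivity, ?_⟩
  rw [mul_pow, div_pow, Real.sq_sqrt hE0]
  have ht2 : 0 < t ^ 2 := by positivity
  calc ‖v‖ ^ 2 * ((t ^ 2)⁻¹ * Ex V fun x => (inner ℝ x v : ℝ) ^ 2)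
      ≤ ‖v‖ ^ 2 * ((t ^ 2)⁻¹ * (‖v‖ ^ 2 * Ex V fun x => ‖x‖ ^ 2)) := by gcongr
    _ = _ := by field_simp

/-! ### the inverse map -/

section inv

variable (φ) in
/-- the inverse of the gradient map -/
noncomputable def Sv : E n → E n := Function.invFun (gradient φ)

theorem Sv_left (h : BP φ V a b M κ) (z : E n) : Sv φ (gradient φ z) = z :=
  Function.leftInverse_invFun (grad_inj h.C2 h.a_pos h.lower) z

theorem Sv_right (h : BP φ V a b M κ) (y : E n) : gradient φ (Sv φ y) = y :=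
  Function.invFun_eq (grad_surj h.C2 h.a_pos h.lower y)

theorem Sv_lip (h : BP φ V a b M κ) (y y' : E n) : ‖Sv φ y - Sv φ y'‖ ≤ a⁻¹ * ‖y - y'‖ := by
  have h1 := grad_dist h.C2 h.a_pos h.lower (Sv φ y') (Sv φ y)
  rwa [Sv_right h, Sv_right h] at h1

theorem Sv_lipw (h : BP φ V a b M κ) : LipschitzWith (Real.toNNReal a⁻¹) (Sv φ) :=
  LipschitzWith.of_dist_le_mul fun y y' => by
    rw [dist_eq_norm, dist_eq_norm, Real.coe_toNNReal _ (inv_nonneg.2 h.a_pos.le)]
    exact Sv_lip h y y'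

/-- the gradient map as a homeomorphism -/
noncomputable def hom (h : BP φ V a b M κ) : E n ≃ₜ E n where
  toFun := gradient φ
  invFun := Sv φ
  left_inv := Sv_left h
  right_inv := Sv_right h
  continuous_toFun := continuous_grad h.C2
  continuous_invFun := (Sv_lipw h).continuous

theorem contDiff_Sv (h : BP φ V a b M κ) : ContDiff ℝ 1 (Sv φ) := by
  have h1 : ContDiff ℝ 1 (gradient φ) :=
    contDiff_one_iff_hasFDerivAt.2 ⟨S.H979.Hc φ, S.H979.continuous_Hc h.C2,
      S.H979.hasFDerivAt_gradient h.C2⟩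
  have hdet : ∀ z, (S.H979.Hc φ z).det ≠ 0 := fun z => by
    rw [S.H979.Hc_det]; exact (S.H979.BP.det_pos h z).ne'
  exact (hom h).contDiff_symm
    (f₀' := fun z => ContinuousLinearMap.toContinuousLinearEquivOfDetNeZero _ (hdet z))
    (fun z => by
      rw [ContinuousLinearMap.coe_toContinuousLinearEquivOfDetNeZero]
      exact S.H979.hasFDerivAt_gradient h.C2 z) h1

/-- derivative of the inverse map -/
theorem fderiv_Sv (h : BP φ V a b M κ) (z w : E n) :
    fderiv ℝ (Sv φ) (gradient φ z) (S.H979.Hc φ z w) = w := by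
  have h1 : HasFDerivAt (Sv φ) (fderiv ℝ (Sv φ) (gradient φ z)) (gradient φ z) :=
    ((contDiff_Sv h).differentiable (by norm_num) _).hasFDerivAt
  have h2 := h1.comp z (S.H979.hasFDerivAt_gradient h.C2 z)
  have h3 : (Sv φ ∘ gradient φ) = id := funext fun z => Sv_left h z
  rw [h3] at h2
  have h4 := h2.unique (hasFDerivAt_id z)
  have h5 := congrArg (fun L : E n →L[ℝ] E n => L w) h4
  simpa using h5

end inv

/-- `⟨D(∇φ)⁻¹ v, v⟩ = ⟨M⁻¹ v, v⟩` -/
theorem inner_fderiv_Sv (h : BP φ V a b M κ) (hS : Spec (hess φ) U m) (z v : E n) :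
    inner ℝ (fderiv ℝ (Sv φ) (gradient φ z) v) v = qf (fc U m (fun x => x⁻¹) z) v := by
  set w : E n := lin (fc U m (fun x => x⁻¹) z) v with hw
  have h1 : S.H979.Hc φ z w = v := by
    have e0 : hess φ z * fc U m (fun x => x⁻¹) z = 1 := by
      have h2 := S130.inv_eq h hS z
      have h3 : fc U m (fun x => x⁻¹) z = (hess φ z)⁻¹ := h2.symm
      rw [h3, Matrix.mul_nonsing_inv _ (isUnit_iff_ne_zero.2 (S.H979.BP.det_pos h z).ne')]
    have e1 : S.H979.Hc φ z w = lin (hess φ z) w := rfl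
    rw [e1, hw, ← lin_mul, e0, lin_one]
  have h2 := fderiv_Sv h z w
  rw [h1] at h2
  rw [h2, hw, qf_dot, inner_dot, lin_eq, dotProduct_comm]

theorem gr_Sv (h : BP φ V a b M κ) (v : E n) : Gr fun y : E n => inner ℝ (Sv φ y) v := by
  refine ⟨((Sv_lipw h).continuous).inner continuous_const,
    (‖Sv φ 0‖ + a⁻¹) * ‖v‖, 1, ?_, fun x => ?_⟩
  · have := h.a_pos; positivity
  · have h0 := inv_nonneg.2 h.a_pos.le
    have h1 : ‖Sv φ x‖ ≤ (‖Sv φ 0‖ + a⁻¹) * (1 + ‖x‖) := by
      have h2 := Sv_lip h x 0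
      rw [sub_zero] at h2
      have h3 : ‖Sv φ x‖ ≤ ‖Sv φ x - Sv φ 0‖ + ‖Sv φ 0‖ := by
        simpa using norm_add_le (Sv φ x - Sv φ 0) (Sv φ 0)
      nlinarith [norm_nonneg (Sv φ 0), norm_nonneg x, mul_nonneg (norm_nonneg (Sv φ 0)) (norm_nonneg x)]
    refine (abs_real_inner_le_norm _ _).trans ?_
    rw [pow_one]
    calc ‖Sv φ x‖ * ‖v‖ ≤ ((‖Sv φ 0‖ + a⁻¹) * (1 + ‖x‖)) * ‖v‖ := by gcongr
      _ = _ := by ring

theorem contDiff_F (h : BP φ V a b M κ) (v : E n) :
    ContDiff ℝ 1 fun y : E n => (inner ℝ (Sv φ y) v : ℝ) :=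
  (contDiff_Sv h).inner ℝ contDiff_const

theorem fderiv_F (h : BP φ V a b M κ) (v y w : E n) :
    fderiv ℝ (fun y : E n => (inner ℝ (Sv φ y) v : ℝ)) y w = inner ℝ (fderiv ℝ (Sv φ) y w) v := by
  have h1 : HasFDerivAt (Sv φ) (fderiv ℝ (Sv φ) y) y :=
    ((contDiff_Sv h).differentiable (by norm_num) _).hasFDerivAt
  have h2 := h1.inner ℝ (hasFDerivAt_const v y)
  rw [h2.fderiv]
  simp

theorem gr_pd_F (h : BP φ V a b M κ) (v : E n) (i : Fin n) :
    Gr (pd i fun y : E n => (inner ℝ (Sv φ y) v : ℝ)) := by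
  have hc : Continuous (pd i fun y : E n => (inner ℝ (Sv φ y) v : ℝ)) :=
    (contDiff_pd (contDiff_F h v) (k := 0) (by norm_num) i).continuous
  refine Gr.of_bound hc (B := a⁻¹ * ‖v‖) fun y => ?_
  unfold pd
  rw [fderiv_F h]
  refine (abs_real_inner_le_norm _ _).trans ?_
  have h1 : ‖fderiv ℝ (Sv φ) y‖ ≤ (Real.toNNReal a⁻¹ : ℝ) := norm_fderiv_le_of_lipschitz ℝ (Sv_lipw h)
  rw [Real.coe_toNNReal _ (inv_nonneg.2 h.a_pos.le)] at h1
  have h2 := (fderiv ℝ (Sv φ) y).le_opNorm (ei i)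
  rw [norm_ei, mul_one] at h2
  exact mul_le_mul_of_nonneg_right (h2.trans h1) (norm_nonneg _)

/-- `E ⟨v, (D²φ)⁻¹ v⟩ ≤ t √C |v|²` -/
theorem low_moment (hPu : StmtPush) (hV : Reg V c C) {P : Matrix (Fin n) (Fin n) ℝ}
    (hdet : P.det ≠ 0) (h : BP φ (fun x => V (lin P x)) a b M κ)
    (hS : Spec (hess φ) U m) {t : ℝ} {v : E n} (ht : 0 < t) (hv : lin P v = t • v)
    (hC : 0 ≤ C) :
    ∫ z, qf (fc U m (fun x => x⁻¹) z) v ∂(law (Q : E n → ℝ)) ≤
      ‖v‖ ^ 2 * (t * Real.sqrt C) := by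
  obtain ⟨c', C', hW⟩ := reg_lin hV hdet
  set W : E n → ℝ := fun x => V (lin P x) with hWd
  set F : E n → ℝ := fun y => inner ℝ (Sv φ y) v with hF
  have hWc : ContDiff ℝ 2 W := hW.C2
  -- the field `∂_v W`
  set D : E n → ℝ := fun x => ∑ i, v i * pd i W x with hD
  have hDg : Gr D := Gr.sum _ fun i _ => (hW.gr_pd i).const_mul _
  have hFg : Gr F := gr_Sv h v
  have e1 : ∫ z, qf (fc U m (fun x => x⁻¹) z) v ∂(law (Q : E n → ℝ)) =
      ∫ x, D x * F x ∂(law W) := by
    have e2 : ∫ x, D x * F x ∂(law W) = Ex W fun x => ∑ i, v i * pd i F x := by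
      rw [← int_law hW]
      have e3 : ∀ x, D x * F x = ∑ i, v i * (pd i W x * F x) := by
        intro x
        rw [hD]
        simp only
        rw [Finset.sum_mul]
        exact Finset.sum_congr rfl fun i _ => by ring
      simp_rw [e3]
      rw [integral_finsetSum _ fun i _ =>
          (integrable_law_gr hW ((hW.gr_pd i).mul hFg)).const_mul _,
        integral_finsetSum _ fun i _ => (integrable_law_gr hW (gr_pd_F h v i)).const_mul _]
      refine Finset.sum_congr rfl fun i _ => ?_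
      rw [integral_const_mul, integral_const_mul, int_law hW, int_law hW,
        ibp hW (contDiff_F h v) hFg i (gr_pd_F h v i)]
    rw [e2, (hPu n φ W a b M κ h).1, int_law reg_Q]
    congr 1
    funext z
    rw [← inner_fderiv_Sv h hS z v, ← fderiv_F h, fderiv_eq_sum]
  have h2 := cs (integrable_law_gr hW (hDg.pow 2)) (integrable_law_gr hW (hFg.pow 2))
    (integrable_law_gr hW (hDg.mul hFg))
  have e3 : ∫ x, F x ^ 2 ∂(law W) = ‖v‖ ^ 2 := by
    rw [int_law hW, (hPu n φ W a b M κ h).1, ← gauss_inner_sq v, int_law reg_Q]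
    congr 1
    funext z
    rw [hF]
    simp only
    rw [Sv_left h]
  have e4 : ∫ x, D x ^ 2 ∂(law W) ≤ t ^ 2 * C * ‖v‖ ^ 2 := by
    have e5 : ∫ x, D x ^ 2 ∂(law W) = ∫ x, qf (hess W x) v ∂(law W) := by
      have e6 : ∀ x, D x ^ 2 = ∑ i, ∑ j, v i * v j * (pd i W x * pd j W x) := by
        intro x
        rw [hD]
        simp only
        rw [sq, Finset.sum_mul_sum]
        refine Finset.sum_congr rfl fun i _ => Finset.sum_congr rfl fun j _ => by ring
      have e7 : ∀ x, qf (hess W x) v = ∑ i, ∑ j, v i * v j * hess W x i j := by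
        intro x
        unfold qf
        refine Finset.sum_congr rfl fun i _ => Finset.sum_congr rfl fun j _ => by ring
      have hI : ∀ i j, Integrable (fun x => v i * v j * (pd i W x * pd j W x)) (law W) :=
        fun i j => (integrable_law_gr hW ((hW.gr_pd i).mul (hW.gr_pd j))).const_mul _
      have hJ : ∀ i j, Integrable (fun x => v i * v j * hess W x i j) (law W) :=
        fun i j => (integrable_law_gr hW (hW.gr_hess i j)).const_mul _
      simp_rw [e6, e7]
      rw [integral_finsetSum _ fun i _ => integrable_finsetSum _ fun j _ => hI i j,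
        integral_finsetSum _ fun i _ => integrable_finsetSum _ fun j _ => hJ i j]
      refine Finset.sum_congr rfl fun i _ => ?_
      rw [integral_finsetSum _ fun j _ => hI i j, integral_finsetSum _ fun j _ => hJ i j]
      refine Finset.sum_congr rfl fun j _ => ?_
      rw [integral_const_mul, integral_const_mul, int_law hW, int_law hW,
        ibp hW (contDiff_pd hWc (k := 1) (by norm_num) j) (hW.gr_pd j) i (hW.gr_hess i j)]
      rfl
    rw [e5]
    have := isProb_law hW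
    have h6 : ∀ x, qf (hess W x) v ≤ t ^ 2 * C * ‖v‖ ^ 2 := by
      intro x
      rw [hWd, qf_hess_lin hV.C2, hv]
      refine (hV.upper _ _).trans (le_of_eq ?_)
      rw [norm_smul, Real.norm_eq_abs, mul_pow, sq_abs]
      ring
    have h7 : Integrable (fun x => qf (hess W x) v) (law W) := by
      unfold qf
      exact integrable_finsetSum _ fun i _ => integrable_finsetSum _ fun j _ =>
        ((integrable_law_gr hW (hW.gr_hess i j)).mul_const _).mul_const _
    refine (integral_mono h7 (integrable_const _) h6).trans ?_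
    simp
  rw [e1]
  refine (sqrt_cs h2).trans ?_
  rw [e3]
  apply Real.sqrt_le_iff.2
  refine ⟨by positivity, ?_⟩
  rw [mul_pow, mul_pow, Real.sq_sqrt hC]
  calc (∫ x, D x ^ 2 ∂(law W)) * ‖v‖ ^ 2 ≤ (t ^ 2 * C * ‖v‖ ^ 2) * ‖v‖ ^ 2 := by gcongr
    _ = _ := by ring

/-- **P4** -/
theorem stmtFace (hPu : StmtPush) : StmtFace := by
  intro n V c C hV P hPt hdet φ a b M κ h U m hS g hmono hconc hconv hcont t v ht hv0 hv
  have hn : 0 < ‖v‖ ^ 2 := by have := norm_pos_iff.2 hv0; positivity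
  have hC : 0 < C := by
    have h1 := hV.lower 0 v
    have h2 := hV.upper 0 v
    have h3 := hV.c_pos
    by_contra hh
    push Not at hh
    nlinarith [mul_pos h3 hn]
  have := isProb_law (reg_Q (n := n))
  have hinvc : ContinuousOn (fun x : ℝ => x⁻¹) (Set.Ioi 0) :=
    continuousOn_inv₀.mono fun x hx => (ne_of_gt hx : x ≠ 0)
  rw [qf_mF h hS hcont]
  constructor
  · have h1 := jensen h hS hconc hcont continuousOn_id (fun x hx => hx) hv0
    simp only [id_eq] at h1
    have e1 : (fun z => qf (fc U m (fun x => x) z) v) = fun z => qf (hess φ z) v := by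
      funext z
      rw [qf_fc, qf_M hS]
    change ∫ z, qf (fc U m g z) v ∂(law (Q : E n → ℝ)) ≤ _ at h1
    refine h1.trans ?_
    rw [mul_comm]
    refine mul_le_mul_of_nonneg_right ?_ hn.le
    change g ((∫ z, qf (fc U m (fun x => x) z) v ∂(law (Q : E n → ℝ))) / ‖v‖ ^ 2) ≤ _
    rw [e1]
    have h2 := up_moment hPu hV hPt hdet h ht hv
    have h3 : a * ‖v‖ ^ 2 ≤ ∫ z, qf (hess φ z) v ∂(law (Q : E n → ℝ)) := by
      have hint : Integrable (fun z => qf (hess φ z) v) (law (Q : E n → ℝ)) := by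
        rw [← e1]; exact integrable_qf_fc h hS continuousOn_id v
      have := integral_mono (μ := law (Q : E n → ℝ)) (integrable_const (a * ‖v‖ ^ 2)) hint
        fun z => h.lower z v
      simpa using this
    have h4 : a ≤ (∫ z, qf (hess φ z) v ∂(law (Q : E n → ℝ))) / ‖v‖ ^ 2 := by
      rwa [le_div_iff₀ hn]
    have h5 : (∫ z, qf (hess φ z) v ∂(law (Q : E n → ℝ))) / ‖v‖ ^ 2 ≤
        Real.sqrt (Ex V fun x => ‖x‖ ^ 2) / t := by
      rw [div_le_iff₀ hn, mul_comm]; exact h2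
    exact hmono (lt_of_lt_of_le h.a_pos h4) (lt_of_lt_of_le h.a_pos (h4.trans h5)) h5
  · set f : ℝ → ℝ := fun s => -g s⁻¹ with hf
    have hfconc : ConcaveOn ℝ (Set.Ioi 0) f := hconv.neg
    have hfcont : ContinuousOn f (Set.Ioi 0) :=
      (hcont.comp hinvc fun x hx => Set.mem_Ioi.2 (inv_pos.2 hx)).neg
    have h1 := jensen h hS hfconc hfcont hinvc (fun x hx => inv_pos.2 hx) hv0
    have e1 : (fun z => qf (fc U m (fun x => f x⁻¹) z) v) = fun z => -qf (fc U m g z) v := by
      funext z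
      rw [qf_fc, qf_fc, ← Finset.sum_neg_distrib]
      refine Finset.sum_congr rfl fun k _ => ?_
      rw [hf]
      simp only [inv_inv]
      ring
    rw [e1, integral_neg] at h1
    have h2 := low_moment hPu hV hdet h hS ht hv hC.le
    set I := ∫ z, qf (fc U m (fun x => x⁻¹) z) v ∂(law (Q : E n → ℝ)) with hI
    have hb0 : 0 < max a b := lt_of_lt_of_le h.a_pos (le_max_left _ _)
    have h3 : (max a b)⁻¹ * ‖v‖ ^ 2 ≤ I := by
      have hint := integrable_qf_fc h hS hinvc v
      have := integral_mono (μ := law (Q : E n → ℝ)) (integrable_const ((max a b)⁻¹ * ‖v‖ ^ 2)) hint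
        fun z => by
          rw [qf_fc, ← wsum hS z v, Finset.mul_sum]
          refine Finset.sum_le_sum fun k _ => mul_le_mul_of_nonneg_right ?_ (sq_nonneg _)
          have hm := S130.eig_mem h hS z k
          exact inv_anti₀ (lt_of_lt_of_le h.a_pos hm.1) (hm.2.trans (le_max_right _ _))
      simpa using this
    have h4 : (max a b)⁻¹ ≤ I / ‖v‖ ^ 2 := by rwa [le_div_iff₀ hn]
    have h5 : I / ‖v‖ ^ 2 ≤ t * Real.sqrt C := by
      rw [div_le_iff₀ hn, mul_comm]; exact h2
    have h6 : 0 < I / ‖v‖ ^ 2 := lt_of_lt_of_le (inv_pos.2 hb0) h4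
    have h7 : g (1 / (t * Real.sqrt C)) ≤ g (I / ‖v‖ ^ 2)⁻¹ := by
      have h8 : 0 < t * Real.sqrt C := lt_of_lt_of_le h6 h5
      refine hmono (one_div_pos.2 h8) (inv_pos.2 h6) ?_
      rw [one_div]
      exact inv_anti₀ h6 h5
    have h9 : -‖v‖ ^ 2 * g (I / ‖v‖ ^ 2)⁻¹ ≥ -∫ z, qf (fc U m g z) v ∂(law (Q : E n → ℝ)) := by
      calc -∫ z, qf (fc U m g z) v ∂(law (Q : E n → ℝ)) ≤ ‖v‖ ^ 2 * f (I / ‖v‖ ^ 2) := h1
        _ = _ := by rw [hf]; ring
    have h10 := mul_le_mul_of_nonneg_right h7 hn.le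
    linarith

end Vale.Agent.P254.SP.H65
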